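import Vale.Agent.H20.QF.OuterDefs

namespace QF.Outer

namespace O9

open Finset QF

theorem digit_mod (C m b x : ℕ) (hb : b < m) : x % C ^ m / C ^ b % C = x / C ^ b % C := by
  have h1 : C ^ m = C ^ b * C ^ (m - b) := by
    rw [← pow_add]; congr 1; omega
  rw [h1, Nat.mod_mul_right_div_self, Nat.mod_mod_of_dvd]
  exact dvd_pow_self C (by omega)

theorem digit_lo (C m b x y : ℕ) (_hC : 0 < C) (hb : b < m) (hx : x < C ^ m) :
    (x + C ^ m * y) / C ^ b % C = x / C ^ b % C := by
  rw [← digit_mod C m b (x + C ^ m * y) hb, Nat.add_mul_mod_self_left, Nat.mod_eq_of_lt hx]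

theorem card_pow_digits' (C m : ℕ) (hC : 0 < C) (P : ℕ → ℕ → Prop)
    [∀ b y, Decidable (P b y)] :
    #{x ∈ range (C ^ m) | ∀ b < m, P b (x / C ^ b % C)} =
      ∏ b ∈ range m, #{y ∈ range C | P b y} := by
  induction m with
  | zero => simp
  | succ m ih =>
    rw [Finset.prod_range_succ, ← ih, ← Finset.card_product]
    have hCm : 0 < C ^ m := pow_pos hC m
    refine Finset.card_nbij' (fun x => (x % C ^ m, x / C ^ m)) (fun z => z.1 + C ^ m * z.2)
      ?_ ?_ ?_ ?_
    · intro x hx
      simp only [Finset.coe_filter, Finset.mem_range, Set.mem_ofPred_eq] at hx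
      obtain ⟨hx1, hx2⟩ := hx
      have hlt : x / C ^ m < C := Nat.div_lt_of_lt_mul (by rw [← pow_succ]; exact hx1)
      simp only [Finset.coe_product, Set.mem_prod, Finset.coe_filter, Finset.mem_range,
        Set.mem_ofPred_eq]
      refine ⟨⟨Nat.mod_lt _ hCm, fun b hb => ?_⟩, hlt, ?_⟩
      · rw [digit_mod C m b x hb]
        exact hx2 b (by omega)
      · have := hx2 m (by omega)
        rwa [Nat.mod_eq_of_lt hlt] at this
    · intro z hz
      simp only [Finset.coe_product, Set.mem_prod, Finset.coe_filter, Finset.mem_range,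
        Set.mem_ofPred_eq] at hz
      obtain ⟨⟨h1, h2⟩, h3, h4⟩ := hz
      simp only [Finset.coe_filter, Finset.mem_range, Set.mem_ofPred_eq]
      constructor
      · calc z.1 + C ^ m * z.2 < C ^ m + C ^ m * z.2 := by omega
          _ = C ^ m * (z.2 + 1) := by ring
          _ ≤ C ^ m * C := Nat.mul_le_mul_left _ h3
          _ = C ^ (m + 1) := (pow_succ C m).symm
      · intro b hb
        rcases Nat.lt_succ_iff_lt_or_eq.1 hb with hb | hb
        · rw [digit_lo C m b z.1 z.2 hC hb h1]
          exact h2 b hb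
        · subst hb
          rw [Nat.add_mul_div_left _ _ hCm, Nat.div_eq_of_lt h1, zero_add, Nat.mod_eq_of_lt h3]
          exact h4
    · intro x _
      exact Nat.mod_add_div x (C ^ m)
    · intro z hz
      simp only [Finset.coe_product, Set.mem_prod, Finset.coe_filter, Finset.mem_range,
        Set.mem_ofPred_eq] at hz
      obtain ⟨⟨h1, h2⟩, h3, h4⟩ := hz
      ext
      · simp only [Nat.add_mul_mod_self_left]
        exact Nat.mod_eq_of_lt h1
      · simp only [Nat.add_mul_div_left _ _ hCm, Nat.div_eq_of_lt h1, zero_add]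

theorem dig_mono (n w : ℕ) (hw : ValidL n w) (i j : ℕ) (hij : i ≤ j) (hj : j < n) :
    dig n w i ≤ dig n w j := by
  induction j with
  | zero =>
    have : i = 0 := by omega
    subst this; exact le_rfl
  | succ j ih =>
    rcases Nat.lt_or_ge i (j + 1) with h | h
    · exact (ih (by omega) (by omega)).trans (hw.2 j hj)
    · have : i = j + 1 := by omega
      subst this; exact le_rfl

theorem first_prime (n w i : ℕ) (hw : ValidL n w) (hi : i < n) (hF : First n w i) :
    (dig n w i).Prime := by
  rcases hw.1 i hi with h | h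
  · have := hF.1; omega
  · exact h

theorem first_lt (n w i j : ℕ) (hw : ValidL n w) (hij : i < j) (hj : j < n)
    (hF : First n w j) : dig n w i < dig n w j := by
  obtain ⟨j', rfl⟩ : ∃ j', j = j' + 1 := ⟨j - 1, by omega⟩
  have h1 := dig_mono n w hw i j' (by omega) (by omega)
  have h2 := hw.2 j' hj
  rcases hF.2 with h | h
  · omega
  · simp only [Nat.add_sub_cancel] at h
    omega

theorem first_ne (n w i j : ℕ) (hw : ValidL n w) (hij : i ≠ j) (hi : i < n) (hj : j < n)
    (hFi : First n w i) (hFj : First n w j) : dig n w i ≠ dig n w j := by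
  rcases Nat.lt_or_ge i j with h | h
  · exact (first_lt n w i j hw h hj hFj).ne
  · exact (first_lt n w j i hw (by omega) hi hFi).ne'

theorem dig_block (n ell b t c : ℕ) (ht : t < ell) :
    dig n c (b * ell + t) = c / ((2 ^ n) ^ ell) ^ b % (2 ^ n) ^ ell / (2 ^ n) ^ t % 2 ^ n := by
  rw [digit_mod (2 ^ n) ell t _ ht]
  unfold dig
  rw [Nat.div_div_eq_div_mul]
  congr 2
  rw [← pow_mul, ← pow_mul, ← pow_mul, ← pow_add]
  congr 1
  ring

open Classical in
theorem card_EE' (hgood : ∀ (N p q : ℕ) (_ : 0 < N) (_ : p.Prime) (_ : q.Prime) (_ : p ≠ 2)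
    (_ : q ≠ 2) (_ : p ∣ N) (_ : q ∣ N) (_ : p ≠ q) (B : ℕ) (_ : N ≤ B),
    4 * #{a ∈ range B | Good N p q a} = Nat.totient N)
    (n N w : ℕ) (hn : 1 ≤ n) (hN : N < 2 ^ n) (hN0 : 0 < N) (hw : ValidL n w)
    (hwN : prodL n w = N) : #{c ∈ range (QQ n) | EE n N w c} = Agood n w := by
  obtain ⟨C, hC⟩ : ∃ C, C = (2 ^ n) ^ ell n := ⟨_, rfl⟩
  have hCpos : 0 < C := by rw [hC]; positivity
  have hQQ : QQ n = C ^ (n * n) := by
    rw [hC, QQ, TT, ← pow_mul, ← pow_mul]
    congr 1; ring
  -- required blocks
  obtain ⟨req, hreq⟩ : ∃ req : ℕ → Prop, req = fun b => b / n ≠ b % n ∧ First n w (b / n) ∧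
      First n w (b % n) := ⟨_, rfl⟩
  have hEE : ∀ c, EE n N w c ↔ ∀ b < n * n, (req b → ∃ t < ell n,
      Good N (dig n w (b / n)) (dig n w (b % n)) (c / C ^ b % C / (2 ^ n) ^ t % 2 ^ n)) := by
    intro c
    constructor
    · intro h b hb hr
      rw [hreq] at hr
      have hbn : b / n < n := Nat.div_lt_of_lt_mul hb
      have hbm : b % n < n := Nat.mod_lt _ (by omega)
      obtain ⟨t, ht, hg⟩ := h (b / n) hbn (b % n) hbm hr.1 hr.2.1 hr.2.2
      refine ⟨t, ht, ?_⟩
      have h1 : (b / n) * n + b % n = b := by rw [mul_comm]; exact Nat.div_add_mod b n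
      rw [h1, dig_block n (ell n) b t c ht, ← hC] at hg
      exact hg
    · intro h i hi j hj hij hFi hFj
      have hb : i * n + j < n * n := by
        calc i * n + j < i * n + n := by omega
          _ = (i + 1) * n := by ring
          _ ≤ n * n := Nat.mul_le_mul_right _ hi
      have h1 : (i * n + j) / n = i := by
        rw [mul_comm, Nat.mul_add_div (by omega), Nat.div_eq_of_lt hj, add_zero]
      have h2 : (i * n + j) % n = j := by
        rw [mul_comm, Nat.mul_add_mod, Nat.mod_eq_of_lt hj]
      obtain ⟨t, ht, hg⟩ := h (i * n + j) hb (by rw [hreq]; simp only [h1, h2]; exact ⟨hij, hFi, hFj⟩)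
      refine ⟨t, ht, ?_⟩
      rw [dig_block n (ell n) _ t c ht, ← hC]
      rw [h1, h2] at hg
      exact hg
  have h1 : #{c ∈ range (QQ n) | EE n N w c} = ∏ b ∈ range (n * n), #{y ∈ range C |
      (req b → ∃ t < ell n, Good N (dig n w (b / n)) (dig n w (b % n))
        (y / (2 ^ n) ^ t % 2 ^ n))} := by
    rw [hQQ, ← card_pow_digits' C (n * n) hCpos (fun b y => req b → ∃ t < ell n,
      Good N (dig n w (b / n)) (dig n w (b % n)) (y / (2 ^ n) ^ t % 2 ^ n))]
    congr 1
    refine Finset.filter_congr fun c _ => ?_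
    exact hEE c
  have hphi : phiL n w = Nat.totient N := by rw [phiL_eq n w hw, hwN]
  -- the value of each factor
  have h2 : ∀ b ∈ range (n * n), #{y ∈ range C |
      (req b → ∃ t < ell n, Good N (dig n w (b / n)) (dig n w (b % n))
        (y / (2 ^ n) ^ t % 2 ^ n))} =
      if req b then C - (2 ^ n - phiL n w / 4) ^ ell n else C := by
    intro b hb
    rw [Finset.mem_range] at hb
    by_cases hr : req b
    · rw [if_pos hr]
      have hr' := hr
      rw [hreq] at hr'
      have hbn : b / n < n := Nat.div_lt_of_lt_mul hb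
      have hbm : b % n < n := Nat.mod_lt _ (by omega)
      have hg := hgood N (dig n w (b / n)) (dig n w (b % n)) hN0
        (first_prime n w _ hw hbn hr'.2.1) (first_prime n w _ hw hbm hr'.2.2)
        (by have := hr'.2.1.1; omega) (by have := hr'.2.2.1; omega)
        (by rw [← hwN]; exact Finset.dvd_prod_of_mem _ (Finset.mem_range.2 hbn))
        (by rw [← hwN]; exact Finset.dvd_prod_of_mem _ (Finset.mem_range.2 hbm))
        (first_ne n w _ _ hw hr'.1 hbn hbm hr'.2.1 hr'.2.2) (2 ^ n) hN.le
      have hcard : #{a ∈ range (2 ^ n) | ¬ Good N (dig n w (b / n)) (dig n w (b % n)) a}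
          = 2 ^ n - phiL n w / 4 := by
        have h3 := Finset.card_filter_add_card_filter_not (s := range (2 ^ n))
          (fun a => Good N (dig n w (b / n)) (dig n w (b % n)) a)
        rw [Finset.card_range] at h3
        rw [hphi]
        omega
      have hneg : #{y ∈ range C | ∀ t < ell n, ¬ Good N (dig n w (b / n)) (dig n w (b % n))
          (y / (2 ^ n) ^ t % 2 ^ n)} = (2 ^ n - phiL n w / 4) ^ ell n := by
        rw [hC, card_pow_digits' (2 ^ n) (ell n) (by positivity)
          (fun _ y => ¬ Good N (dig n w (b / n)) (dig n w (b % n)) y)]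
        rw [hcard, Finset.prod_const, Finset.card_range]
      have h4 := Finset.card_filter_add_card_filter_not (s := range C)
        (fun y => ∃ t < ell n, Good N (dig n w (b / n)) (dig n w (b % n))
          (y / (2 ^ n) ^ t % 2 ^ n))
      rw [Finset.card_range] at h4
      have h5 : #{y ∈ range C | ¬ ∃ t < ell n, Good N (dig n w (b / n)) (dig n w (b % n))
          (y / (2 ^ n) ^ t % 2 ^ n)} = (2 ^ n - phiL n w / 4) ^ ell n := by
        rw [← hneg]
        congr 1
        refine Finset.filter_congr fun y _ => ?_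
        push Not
        rfl
      rw [h5] at h4
      have h6 : #{y ∈ range C | (req b → ∃ t < ell n, Good N (dig n w (b / n)) (dig n w (b % n))
          (y / (2 ^ n) ^ t % 2 ^ n))} = #{y ∈ range C | ∃ t < ell n,
            Good N (dig n w (b / n)) (dig n w (b % n)) (y / (2 ^ n) ^ t % 2 ^ n)} := by
        congr 1
        refine Finset.filter_congr fun y _ => ?_
        constructor
        · intro h; exact h hr
        · intro h _; exact h
      rw [h6]
      omega
    · rw [if_neg hr]
      rw [Finset.filter_true_of_mem (fun y _ h => absurd h hr), Finset.card_range]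
  rw [h1, Finset.prod_congr rfl h2, Finset.prod_ite, Finset.prod_const, Finset.prod_const]
  -- the number of required blocks
  have hk : #{b ∈ range (n * n) | req b} = kodd n w * (kodd n w - 1) := by
    have h3 : #{b ∈ range (n * n) | req b}
        = #(({i ∈ range n | First n w i} : Finset ℕ).offDiag) := by
      refine Finset.card_nbij' (fun b => (b / n, b % n)) (fun z => z.1 * n + z.2) ?_ ?_ ?_ ?_
      · intro b hb
        simp only [Finset.coe_filter, Finset.mem_range, Set.mem_ofPred_eq] at hb
        obtain ⟨hb, hr⟩ := hb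
        rw [hreq] at hr
        simp only [Finset.coe_offDiag, Set.mem_offDiag, Finset.coe_filter, Finset.mem_range,
          Set.mem_ofPred_eq]
        exact ⟨⟨Nat.div_lt_of_lt_mul hb, hr.2.1⟩, ⟨Nat.mod_lt _ (by omega), hr.2.2⟩, hr.1⟩
      · intro z hz
        simp only [Finset.coe_offDiag, Set.mem_offDiag, Finset.coe_filter, Finset.mem_range,
          Set.mem_ofPred_eq] at hz
        obtain ⟨⟨hi, hFi⟩, ⟨hj, hFj⟩, hij⟩ := hz
        simp only [Finset.coe_filter, Finset.mem_range, Set.mem_ofPred_eq]
        have h1 : (z.1 * n + z.2) / n = z.1 := by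
          rw [mul_comm, Nat.mul_add_div (by omega), Nat.div_eq_of_lt hj, add_zero]
        have h2 : (z.1 * n + z.2) % n = z.2 := by
          rw [mul_comm, Nat.mul_add_mod, Nat.mod_eq_of_lt hj]
        constructor
        · calc z.1 * n + z.2 < z.1 * n + n := by omega
            _ = (z.1 + 1) * n := by ring
            _ ≤ n * n := Nat.mul_le_mul_right _ hi
        · rw [hreq]
          simp only [h1, h2]
          exact ⟨hij, hFi, hFj⟩
      · intro b _
        simp only
        rw [mul_comm]; exact Nat.div_add_mod b n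
      · intro z hz
        simp only [Finset.coe_offDiag, Set.mem_offDiag, Finset.coe_filter, Finset.mem_range,
          Set.mem_ofPred_eq] at hz
        obtain ⟨⟨hi, hFi⟩, ⟨hj, hFj⟩, hij⟩ := hz
        ext
        · simp only
          rw [mul_comm, Nat.mul_add_div (by omega), Nat.div_eq_of_lt hj, add_zero]
        · simp only
          rw [mul_comm, Nat.mul_add_mod, Nat.mod_eq_of_lt hj]
    rw [h3, Finset.offDiag_card, kodd, Nat.mul_sub, mul_one]
  have hnk : #{b ∈ range (n * n) | ¬ req b} = n * n - kodd n w * (kodd n w - 1) := by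
    have h3 := Finset.card_filter_add_card_filter_not (s := range (n * n)) req
    rw [Finset.card_range, hk] at h3
    omega
  rw [hk, hnk, Agood, hC]

end O9

end QF.Outer
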