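import Vale.Agent.H27.QF.Ord

namespace QF

open Finset QF.Lib

theorem le_Wb (n : ℕ) : n ≤ Wb n := by
  unfold Wb
  calc n ≤ 4 * n + 8 := by omega
    _ = (4 * n + 8) ^ 1 := (pow_one _).symm
    _ ≤ (4 * n + 8) ^ 20 := Nat.pow_le_pow_right (by omega) (by norm_num)

theorem EQ_ordS' : EQ DS ordS := by
  obtain ⟨A, S, hS, hSe, hw, hst⟩ := exists_inner
  refine EQ.amplify A S hS (fun n W => by rw [hSe]; omega) hw ?_ ?_
  · intro n W x hD
    have h1 : Wb n ≤ W := hD.1
    have h2 : 1 ≤ Wb n := by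
      unfold Wb
      exact Nat.one_le_pow _ _ (by omega)
    omega
  · intro n W e ω hD hcl
    have hWb : Wb n ≤ W := hD.1
    have hnW : n ≤ W := (le_Wb n).trans hWb
    have hp : 2 ^ n ≤ 2 ^ W := Nat.pow_le_pow_right (by norm_num) hnW
    rw [hSe] at hcl
    have hcl' : ∀ i, 3 ≤ i → i < 16 + 9 * ll n → ω i = 0 := by
      intro i hi hi'
      obtain ⟨j, rfl⟩ : ∃ j, i = 3 + j := ⟨i - 3, by omega⟩
      exact hcl j (by omega)
    have hcong : runL (A.steps n W 0 e) (Finsupp.single ω 1)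
        = runL (inner n) (Finsupp.single ω 1) := by
      refine runL_congr W {i | i < 16 + 9 * ll n} _ _ (hst n W e hWb) _ ?_
      intro ζ hζ i hi
      rw [Finset.mem_singleton.1 (Finsupp.support_single_subset hζ)]
      have h0 : ω 0 < 2 ^ n := hD.2.2.1
      have h1 : ω 1 < ω 0 := hD.2.2.2.1
      have h2 : ω 2 < n := hD.2.2.2.2.2.1
      have h3 : n < 2 ^ n := Nat.lt_two_pow_self
      rcases Nat.lt_or_ge i 3 with h | h
      · interval_cases i <;> omega
      · rw [hcl' i h hi]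
        positivity
    rw [hcong]
    exact inner_spec n W ω hD hcl'

end QF
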